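import Mathlib

/-!
P103 homology bridge (helper8): real cochains on singular simplices and the functionals they induce
on real singular homology.
-/

namespace Vale.Agent.P103S.Homology

open CategoryTheory Limits AlgebraicTopology Simplicial

noncomputable section

/-- Real singular chains. -/
abbrev chains (X : TopCat.{0}) : ChainComplex (ModuleCat.{0} ℝ) ℕ :=
  (TopCat.toSSet.obj X).chainComplex (ModuleCat.of ℝ ℝ)

/-- Real singular homology. -/
abbrev hom2 (X : TopCat.{0}) : ModuleCat.{0} ℝ :=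
  (chains X).homology 2

/-- The induced map. -/
abbrev hom2Map {X Y : TopCat.{0}} (f : X ⟶ Y) : hom2 X ⟶ hom2 Y :=
  HomologicalComplex.homologyMap (SSet.chainComplexMap (TopCat.toSSet.map f) (ModuleCat.of ℝ ℝ)) 2

theorem singularHomologyFunctor_map {X Y : TopCat.{0}} (f : X ⟶ Y) :
    ((singularHomologyFunctor (ModuleCat.{0} ℝ) 2).obj (ModuleCat.of ℝ ℝ)).map f = hom2Map f :=
  rfl

abbrev Sim (X : TopCat.{0}) (n : ℕ) : Type := (TopCat.toSSet.obj X) _⦋n⦌

def evalCochain {X : TopCat.{0}} {n : ℕ} (c : Sim X n → ℝ) :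
    (chains X).X n ⟶ ModuleCat.of ℝ ℝ :=
  Sigma.desc fun σ => c σ • 𝟙 (ModuleCat.of ℝ ℝ)

theorem ι_evalCochain {X : TopCat.{0}} {n : ℕ} (c : Sim X n → ℝ) (σ : Sim X n) :
    (TopCat.toSSet.obj X).ιChainComplex σ ≫ evalCochain c = c σ • 𝟙 (ModuleCat.of ℝ ℝ) :=
  Sigma.ι_desc _ _

def cobd {X : TopCat.{0}} {n : ℕ} (b : Sim X n → ℝ) (σ : Sim X (n + 1)) : ℝ :=
  ∑ i : Fin (n + 2), (-1) ^ i.val * b ((TopCat.toSSet.obj X).δ i σ)

theorem d_evalCochain {X : TopCat.{0}} {n : ℕ} (b : Sim X n → ℝ) :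
    (chains X).d (n + 1) n ≫ evalCochain b = evalCochain (cobd b) := by
  refine SSet.chainComplex_hom_ext fun σ => ?_
  rw [SSet.ιChainComplex_d_assoc, ι_evalCochain, cobd, Preadditive.sum_comp, Finset.sum_smul]
  refine Finset.sum_congr rfl fun i _ => ?_
  rw [Preadditive.zsmul_comp, ι_evalCochain, ← Int.cast_smul_eq_zsmul ℝ, smul_smul]
  simp

theorem map_evalCochain {X Y : TopCat.{0}} (f : X ⟶ Y) {n : ℕ} (c : Sim Y n → ℝ) :
    (SSet.chainComplexMap (TopCat.toSSet.map f) (ModuleCat.of ℝ ℝ)).f n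
      ≫ evalCochain c = evalCochain fun σ => c ((TopCat.toSSet.map f).app _ σ) := by
  refine SSet.chainComplex_hom_ext fun σ => ?_
  rw [ι_evalCochain]
  rw [SSet.ι_chainComplexMap_f_assoc, ι_evalCochain]

/-- A cocycle gives a functional on homology. -/
def pairing {X : TopCat.{0}} (c : Sim X 2 → ℝ) (hc : ∀ τ : Sim X 3, cobd c τ = 0) :
    hom2 X ⟶ ModuleCat.of ℝ ℝ :=
  (chains X).homologyι 2 ≫ (chains X).descOpcycles (evalCochain c) 3 (by simp) (by
    rw [d_evalCochain]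
    refine SSet.chainComplex_hom_ext fun σ => ?_
    rw [ι_evalCochain, hc, zero_smul, comp_zero])

theorem π_pairing {X : TopCat.{0}} (c : Sim X 2 → ℝ) (hc : ∀ τ : Sim X 3, cobd c τ = 0) :
    (chains X).homologyπ 2 ≫ pairing c hc = (chains X).iCycles 2 ≫ evalCochain c := by
  simp [pairing]

theorem map_pairing {X : TopCat.{0}} (f : X ⟶ X) (c : Sim X 2 → ℝ)
    (hc : ∀ τ : Sim X 3, cobd c τ = 0) (a : ℝ) (b : Sim X 1 → ℝ)
    (h : ∀ σ, c ((TopCat.toSSet.map f).app _ σ) = a * c σ + cobd b σ) :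
    hom2Map f ≫ pairing c hc = a • pairing c hc := by
  rw [← cancel_epi ((chains X).homologyπ 2)]
  rw [HomologicalComplex.homologyπ_naturality_assoc, π_pairing, Linear.comp_smul, π_pairing,
    HomologicalComplex.cyclesMap_i_assoc, map_evalCochain]
  have : evalCochain (fun σ => c ((TopCat.toSSet.map f).app _ σ))
      = a • evalCochain c + (chains X).d 2 1 ≫ evalCochain b := by
    rw [d_evalCochain]
    refine SSet.chainComplex_hom_ext fun σ => ?_
    rw [ι_evalCochain, Preadditive.comp_add, Linear.comp_smul, ι_evalCochain, ι_evalCochain,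
      h, add_smul, mul_smul]
  rw [this, Preadditive.comp_add, Linear.comp_smul, HomologicalComplex.iCycles_d_assoc, zero_comp,
    add_zero]

theorem pairing_ne_zero {X : TopCat.{0}} (c : Sim X 2 → ℝ) (hc : ∀ τ : Sim X 3, cobd c τ = 0)
    (σ τ : Sim X 2) (hface : ∀ i, (TopCat.toSSet.obj X).δ i σ = (TopCat.toSSet.obj X).δ i τ)
    (hne : c σ ≠ c τ) : pairing c hc ≠ 0 := by
  intro h0
  let z : ModuleCat.of ℝ ℝ ⟶ (chains X).X 2 :=
    (TopCat.toSSet.obj X).ιChainComplex σ - (TopCat.toSSet.obj X).ιChainComplex τ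
  have hz : z ≫ (chains X).d 2 1 = 0 := by
    simp only [z, Preadditive.sub_comp, SSet.ιChainComplex_d, hface, sub_self]
  have := congrArg (fun m => (chains X).liftCycles z 1 (by simp) hz ≫ m) (π_pairing c hc)
  rw [h0] at this
  simp [z, ι_evalCochain] at this
  have h1 : (c σ - c τ) • 𝟙 (ModuleCat.of ℝ ℝ) = 0 := by rw [sub_smul]; exact this.symm
  exact hne (sub_eq_zero.1 (by simpa using congrArg (fun m => (m : ModuleCat.of ℝ ℝ ⟶ _).hom 1) h1))

end

end Vale.Agent.P103S.Homology
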