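import Mathlib

/-!
P103 homology bridge (helper8): continuous logarithms on standard simplices and the increment of
the argument along a singular edge.
-/

namespace Vale.Agent.P103S.Homology

open Complex Set
open scoped unitInterval

noncomputable section

/-- The standard topological simplex. -/
abbrev Simp (n : ℕ) : Type := stdSimplex ℝ (Fin (n + 1))

/-- The straight contraction of a simplex to its first vertex. -/
def contr (n : ℕ) : C(I × Simp n, Simp n) where
  toFun p := ⟨(1 - (p.1 : ℝ)) • (stdSimplex.vertex (S := ℝ) (0 : Fin (n + 1))).1 + (p.1 : ℝ) • p.2.1,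
    convex_stdSimplex ℝ _ (stdSimplex.vertex (S := ℝ) (0 : Fin (n + 1))).2 p.2.2
      (sub_nonneg.2 p.1.2.2) p.1.2.1 (sub_add_cancel _ _)⟩
  continuous_toFun := by
    refine Continuous.subtype_mk ?_ _
    fun_prop

@[simp] theorem contr_zero {n : ℕ} (x : Simp n) :
    contr n (0, x) = stdSimplex.vertex (S := ℝ) (0 : Fin (n + 1)) := by
  apply Subtype.ext
  simp [contr]

@[simp] theorem contr_one {n : ℕ} (x : Simp n) : contr n (1, x) = x := by
  apply Subtype.ext
  simp [contr]

theorem exists_clog {n : ℕ} (g : C(Simp n, ℂ)) (hg : ∀ x, g x ≠ 0) :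
    ∃ L : C(Simp n, ℂ), ∀ x, exp (L x) = g x := by
  let H : C(I × Simp n, {z : ℂ // z ≠ 0}) :=
    ⟨fun p => ⟨g (contr n p), hg _⟩, (g.continuous.comp (contr n).continuous).subtype_mk _⟩
  let f₀ : C(Simp n, ℂ) := .const _ (log (g (stdSimplex.vertex (S := ℝ) (0 : Fin (n + 1)))))
  have h0 : ∀ a, H (0, a) = (fun z : ℂ => (⟨exp z, exp_ne_zero z⟩ : {z : ℂ // z ≠ 0})) (f₀ a) :=
    fun a => Subtype.ext (by simp [H, f₀, exp_log (hg _)])
  refine ⟨⟨fun x => isCoveringMap_exp.liftHomotopy H f₀ h0 (1, x), by fun_prop⟩, fun x => ?_⟩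
  have h := congrArg Subtype.val (congr_fun (isCoveringMap_exp.liftHomotopy_lifts H f₀ h0) (1, x))
  simpa [H] using h

/-- A chosen logarithm, zero for functions with zeros. -/
def clog {n : ℕ} (g : C(Simp n, ℂ)) : C(Simp n, ℂ) :=
  open Classical in if h : ∀ x, g x ≠ 0 then (exists_clog g h).choose else 0

theorem exp_clog {n : ℕ} {g : C(Simp n, ℂ)} (hg : ∀ x, g x ≠ 0) (x : Simp n) :
    exp (clog g x) = g x := by
  rw [clog, dif_pos hg]
  exact (exists_clog g hg).choose_spec x

theorem eq_of_exp_eq {n : ℕ} {L L' : C(Simp n, ℂ)} (h : ∀ x, exp (L x) = exp (L' x))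
    (x y : Simp n) : L x - L' x = L y - L' y := by
  let d : C(Simp n, ℂ) := L - L'
  have hd : ∀ z, ∃ k : ℤ, d z = k * (2 * Real.pi * Complex.I) := fun z => by
    obtain ⟨k, hk⟩ := exp_eq_exp_iff_exists_int.1 (h z)
    exact ⟨k, by simp [d, hk]⟩
  choose k hk using hd
  have hk' : IsLocallyConstant k := by
    rw [IsLocallyConstant.iff_eventually_eq]
    intro z
    have hc : ContinuousAt (fun w => (d w).im / (2 * Real.pi)) z := by fun_prop
    have he : ∀ w, (d w).im / (2 * Real.pi) = k w := fun w => by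
      rw [hk w]
      simp
    have := (Metric.tendsto_nhds.1 hc) 1 one_pos
    filter_upwards [this] with w hw
    rw [he, he, Real.dist_eq, ← Int.cast_sub, ← Int.cast_abs] at hw
    have hw' : |k w - k z| < 1 := by exact_mod_cast hw
    exact sub_eq_zero.1 (Int.abs_lt_one_iff.1 hw')
  have : PreconnectedSpace (Simp n) :=
    Subtype.preconnectedSpace (convex_stdSimplex ℝ (Fin (n + 1))).isPreconnected
  show d x = d y
  rw [hk, hk, hk'.apply_eq_of_isPreconnected isPreconnected_univ (mem_univ x) (mem_univ y)]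

/-- The increment of the argument of a function on the segment. -/
def inc (r : C(Simp 1, ℂ)) : ℝ :=
  (clog r (stdSimplex.vertex 1) - clog r (stdSimplex.vertex 0)).im

theorem inc_eq {r : C(Simp 1, ℂ)} (L : C(Simp 1, ℂ)) (hL : ∀ x, exp (L x) = r x) :
    inc r = (L (stdSimplex.vertex 1) - L (stdSimplex.vertex 0)).im := by
  have hr : ∀ x, r x ≠ 0 := fun x => hL x ▸ exp_ne_zero _
  have h := eq_of_exp_eq (L := clog r) (L' := L) (fun x => by rw [exp_clog hr, hL])
    (stdSimplex.vertex 1) (stdSimplex.vertex 0)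
  rw [inc]
  congr 1
  linear_combination h

theorem inc_mul {r s : C(Simp 1, ℂ)} (hr : ∀ x, r x ≠ 0) (hs : ∀ x, s x ≠ 0) :
    inc (r * s) = inc r + inc s := by
  rw [inc_eq (clog r + clog s) fun x => by simp [exp_add, exp_clog hr, exp_clog hs]]
  simp [inc]
  ring

theorem inc_ofReal (m : C(Simp 1, ℝ)) (hm : ∀ x, 0 < m x) :
    inc ⟨fun x => (m x : ℂ), by fun_prop⟩ = 0 := by
  rw [inc_eq (r := ⟨fun x => (m x : ℂ), by fun_prop⟩)
    ⟨fun x => (Real.log (m x) : ℂ), continuous_ofReal.comp (m.continuous.log fun x => (hm x).ne')⟩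
    fun x => by simp [← ofReal_exp, Real.exp_log (hm x)]]
  simp

theorem inc_eq_arg {r : C(Simp 1, ℂ)}
    (h : ∀ x, r x / r (stdSimplex.vertex 0) ∈ slitPlane) :
    inc r = arg (r (stdSimplex.vertex 1) / r (stdSimplex.vertex 0)) := by
  have h0 : r (stdSimplex.vertex 0) ≠ 0 := fun e => by
    simpa [e] using slitPlane_ne_zero (h (stdSimplex.vertex 0))
  rw [inc_eq ⟨fun x => log (r x / r (stdSimplex.vertex 0)) + log (r (stdSimplex.vertex 0)),
    ((r.continuous.div_const _).clog h).add continuous_const⟩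
    fun x => by
      simp [exp_add, exp_log (slitPlane_ne_zero (h x)), exp_log h0, div_mul_cancel₀ _ h0]]
  simp [log_im, div_self h0]

/-- The face inclusions. -/
def face {n : ℕ} (i : Fin (n + 2)) : C(Simp n, Simp (n + 1)) :=
  ⟨stdSimplex.map i.succAbove, stdSimplex.continuous_map _⟩

theorem face_vertex {n : ℕ} (i : Fin (n + 2)) (j : Fin (n + 1)) :
    face i (stdSimplex.vertex j) = stdSimplex.vertex (i.succAbove j) :=
  stdSimplex.map_vertex _ _

/-- The increments around the boundary of a triangle cancel. -/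
theorem inc_boundary {g : C(Simp 2, ℂ)} (hg : ∀ x, g x ≠ 0) :
    ∑ i : Fin 3, (-1 : ℝ) ^ i.val * inc (g.comp (face i)) = 0 := by
  have h : ∀ i, inc (g.comp (face i)) =
      (clog g (stdSimplex.vertex (i.succAbove 1)) - clog g (stdSimplex.vertex (i.succAbove 0))).im :=
    fun i => by
      rw [inc_eq ((clog g).comp (face i)) fun x => by simp [exp_clog hg]]
      simp [face_vertex]
  simp only [h, Fin.sum_univ_three, Fin.isValue]
  simp [Fin.succAbove]


end

end Vale.Agent.P103S.Homology
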