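import Mathlib
import Vale.Agent.P103S.Homology.CLog

/-!
P103 homology bridge (helper8): lifts of singular simplices of the two sphere to nonzero vectors of
the plane over the complex numbers, and the squaring map of the two sphere.
-/

namespace Vale.Agent.P103S.Homology

open ComplexConjugate
open scoped unitInterval

noncomputable section

/-- The two sphere. -/
abbrev S2 : Type := Metric.sphere (0 : EuclideanSpace ℝ (Fin 3)) 1

/-- The equatorial complex coordinate. -/
def wC (x : S2) : ℂ := ⟨x.1 0, x.1 1⟩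

/-- The vertical coordinate, as a complex number. -/
def zC (x : S2) : ℂ := ((x.1 2 : ℝ) : ℂ)

@[fun_prop]
theorem continuous_wC : Continuous wC := by
  have : wC = fun x : S2 => (x.1 0 : ℂ) + (x.1 1 : ℂ) * Complex.I := by
    funext x; exact (Complex.re_add_im (wC x)).symm
  rw [this]; fun_prop

@[fun_prop]
theorem continuous_zC : Continuous zC := by unfold zC; fun_prop

theorem sq_sum (x : S2) : (x.1 0) ^ 2 + (x.1 1) ^ 2 + (x.1 2) ^ 2 = 1 := by
  have h := EuclideanSpace.norm_sq_eq (𝕜 := ℝ) x.1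
  rw [mem_sphere_zero_iff_norm.1 x.2] at h
  simp [Fin.sum_univ_three, sq_abs] at h
  linarith

theorem conj_wC_mul (x : S2) : conj (wC x) * wC x + zC x ^ 2 = 1 := by
  rw [← Complex.normSq_eq_conj_mul_self, zC, ← Complex.ofReal_pow, ← Complex.ofReal_add,
    ← Complex.ofReal_one]
  congr 1
  rw [Complex.normSq_apply]
  simp only [wC]
  linarith [sq_sum x]

@[simp] theorem conj_zC (x : S2) : conj (zC x) = zC x := Complex.conj_ofReal _

/-- A vector is a lift of a point when it spans the line of the point. -/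
structure IsLift (x : S2) (v : ℂ × ℂ) : Prop where
  ne : v ≠ 0
  eq₁ : conj (wC x) * v.2 = (1 - zC x) * v.1
  eq₂ : wC x * v.1 = (1 + zC x) * v.2

theorem exists_isLift (x : S2) : ∃ v, IsLift x v := by
  have h := conj_wC_mul x
  by_cases hz : 1 + zC x = 0
  · have hz' : zC x = -1 := by linear_combination hz
    have hw : wC x = 0 := by
      rw [hz', ← Complex.normSq_eq_conj_mul_self] at h
      apply Complex.normSq_eq_zero.1
      exact_mod_cast (by linear_combination h : (Complex.normSq (wC x) : ℂ) = 0)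
    exact ⟨(0, 1), by simp, by simp [hw], by simp [hz]⟩
  · exact ⟨(1 + zC x, wC x), fun e => hz (congrArg Prod.fst e),
      by linear_combination h, by ring⟩

/-- A chosen lift of a point. -/
def ptLift (x : S2) : ℂ × ℂ := (exists_isLift x).choose

theorem isLift_ptLift (x : S2) : IsLift x (ptLift x) := (exists_isLift x).choose_spec

/-- The projection to the line of a point. -/
def proj (x : S2) (v : ℂ × ℂ) : ℂ × ℂ :=
  (((1 + zC x) * v.1 + conj (wC x) * v.2) / 2, (wC x * v.1 + (1 - zC x) * v.2) / 2)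

theorem isLift_proj {x y : S2} {v : ℂ × ℂ} (hv : IsLift x v) (hxy : y.1 ≠ -x.1) :
    IsLift y (proj y v) := by
  have hy := conj_wC_mul y
  refine ⟨fun e => hxy ?_, by simp only [proj]; linear_combination (v.1 / 2) * hy,
    by simp only [proj]; linear_combination (v.2 / 2) * hy⟩
  have h1 := hv.eq₁
  have h2 := hv.eq₂
  have e1 : (1 + zC y) * v.1 + conj (wC y) * v.2 = 0 :=
    (div_eq_zero_iff.1 (congrArg Prod.fst e)).resolve_right two_ne_zero
  have e2 : wC y * v.1 + (1 - zC y) * v.2 = 0 :=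
    (div_eq_zero_iff.1 (congrArg Prod.snd e)).resolve_right two_ne_zero
  have c1 := congrArg conj h1
  have c2 := congrArg conj e1
  simp only [map_mul, map_sub, map_add, map_one, map_zero, Complex.conj_conj, conj_zC] at c1 c2
  have hpos : v.1 * conj v.1 + v.2 * conj v.2 ≠ 0 := by
    rw [Complex.mul_conj, Complex.mul_conj, ← Complex.ofReal_add]
    intro h0
    have h0' : Complex.normSq v.1 + Complex.normSq v.2 = 0 := by exact_mod_cast h0
    have := Complex.normSq_nonneg v.1
    have := Complex.normSq_nonneg v.2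
    exact hv.ne (Prod.ext (Complex.normSq_eq_zero.1 (by linarith))
      (Complex.normSq_eq_zero.1 (by linarith)))
  have hz : zC y = -zC x := by
    refine sub_eq_zero.1 ((mul_eq_zero.1 ?_).resolve_right hpos)
    linear_combination v.1 * c1 - (conj v.2) * h2 + v.1 * c2 - (conj v.2) * e2
  have hw : wC y = -wC x := by
    by_cases ha : v.1 = 0
    · have hb : v.2 ≠ 0 := fun hb => hv.ne (Prod.ext ha hb)
      have wx : wC x = 0 := by
        have : conj (wC x) = 0 := (mul_eq_zero.1 (by rw [h1, ha, mul_zero])).resolve_right hb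
        simpa using congrArg conj this
      have wy : wC y = 0 := by
        rw [ha, mul_zero, zero_add] at e1
        simpa using congrArg conj ((mul_eq_zero.1 e1).resolve_right hb)
      rw [wx, wy, neg_zero]
    · refine eq_neg_iff_add_eq_zero.2 ((mul_eq_zero.1 ?_).resolve_right ha)
      linear_combination e2 + h2 + v.2 * hz
  have hz' : y.1 2 = -(x.1 2) := Complex.ofReal_injective (by simpa [zC] using hz)
  have hr : y.1 0 = -(x.1 0) := by simpa [wC] using congrArg Complex.re hw
  have hi : y.1 1 = -(x.1 1) := by simpa [wC] using congrArg Complex.im hw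
  apply PiLp.ext
  intro j
  fin_cases j <;> simp [hz', hr, hi]

/-- The factor between two vectors on one line. -/
def ratio (u v : ℂ × ℂ) : ℂ :=
  (conj v.1 * u.1 + conj v.2 * u.2) / (conj v.1 * v.1 + conj v.2 * v.2)

theorem den_ne {v : ℂ × ℂ} (hv : v ≠ 0) : conj v.1 * v.1 + conj v.2 * v.2 ≠ 0 := by
  rw [← Complex.normSq_eq_conj_mul_self, ← Complex.normSq_eq_conj_mul_self,
    ← Complex.ofReal_add]
  intro h0
  have h0' : Complex.normSq v.1 + Complex.normSq v.2 = 0 := by exact_mod_cast h0
  have := Complex.normSq_nonneg v.1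
  have := Complex.normSq_nonneg v.2
  exact hv (Prod.ext (Complex.normSq_eq_zero.1 (by linarith))
    (Complex.normSq_eq_zero.1 (by linarith)))

theorem ratio_smul {v : ℂ × ℂ} (hv : v ≠ 0) (r : ℂ) : ratio (r • v) v = r := by
  rw [ratio, div_eq_iff (den_ne hv)]
  simp
  ring

theorem IsLift.cross {x : S2} {u v : ℂ × ℂ} (hu : IsLift x u) (hv : IsLift x v) :
    u.1 * v.2 = u.2 * v.1 := by
  by_cases hz : 1 + zC x = 0
  · have h := conj_wC_mul x
    have hz' : zC x = -1 := by linear_combination hz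
    have ha : ∀ {t : ℂ × ℂ}, IsLift x t → t.1 = 0 := fun {t} ht => by
      have h1 := ht.eq₁
      have hw : conj (wC x) * wC x = 0 := by rw [hz'] at h; linear_combination h
      rcases mul_eq_zero.1 hw with hw | hw
      · rw [hw, hz', zero_mul] at h1; linear_combination (-1 / 2 : ℂ) * h1
      · rw [hw, hz', map_zero, zero_mul] at h1; linear_combination (-1 / 2 : ℂ) * h1
    simp [ha hu, ha hv]
  · refine mul_left_cancel₀ hz ?_
    linear_combination v.1 * hu.eq₂ - u.1 * hv.eq₂

theorem IsLift.eq_ratio_smul {x : S2} {u v : ℂ × ℂ} (hu : IsLift x u) (hv : IsLift x v) :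
    u = ratio u v • v := by
  have hd := den_ne hv.ne
  have h := hu.cross hv
  refine Prod.ext ?_ ?_ <;> simp only [ratio, Prod.smul_fst, Prod.smul_snd, smul_eq_mul] <;>
    rw [div_mul_eq_mul_div, eq_div_iff hd]
  · linear_combination (conj v.2) * h
  · linear_combination -(conj v.1) * h

theorem IsLift.ratio_ne {x : S2} {u v : ℂ × ℂ} (hu : IsLift x u) (hv : IsLift x v) :
    ratio u v ≠ 0 := fun e => hu.ne (by rw [hu.eq_ratio_smul hv, e, zero_smul])

theorem IsLift.smul {x : S2} {v : ℂ × ℂ} (hv : IsLift x v) {r : ℂ} (hr : r ≠ 0) :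
    IsLift x (r • v) :=
  ⟨smul_ne_zero hr hv.ne, by simp; linear_combination r * hv.eq₁,
    by simp; linear_combination r * hv.eq₂⟩

/-- A continuous lift of a singular simplex. -/
def IsLiftOn {n : ℕ} (φ : C(Simp n, S2)) (v : C(Simp n, ℂ × ℂ)) : Prop :=
  ∀ x, IsLift (φ x) (v x)

theorem exists_liftOn {n : ℕ} (φ : C(Simp n, S2)) : ∃ v, IsLiftOn φ v := by
  have hu : UniformContinuous (φ.comp (contr n)) :=
    CompactSpace.uniformContinuous_of_continuous (map_continuous _)
  obtain ⟨δ, hδ, hd⟩ := Metric.uniformContinuous_iff.1 hu 1 one_pos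
  obtain ⟨N, hN⟩ := exists_nat_gt (1 / δ)
  let tk : ℕ → I := fun k => Set.projIcc 0 1 zero_le_one ((k : ℝ) / N)
  suffices h : ∀ k, ∃ v : C(Simp n, ℂ × ℂ), ∀ x, IsLift (φ (contr n (tk k, x))) (v x) by
    obtain ⟨v, hv⟩ := h N
    refine ⟨v, fun x => ?_⟩
    have hN0 : (0 : ℝ) < N := lt_trans (by positivity) hN
    have e : tk N = 1 := Subtype.ext (by simp [tk, Set.projIcc, div_self hN0.ne'])
    simpa [e] using hv x
  intro k
  induction k with
  | zero =>
    refine ⟨.const _ (ptLift (φ (stdSimplex.vertex 0))), fun x => ?_⟩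
    have e : tk 0 = 0 := Subtype.ext (by simp [tk, Set.projIcc])
    rw [e, contr_zero]
    exact isLift_ptLift _
  | succ k ih =>
    obtain ⟨v, hv⟩ := ih
    refine ⟨⟨fun x => proj (φ (contr n (tk (k + 1), x))) (v x), ?_⟩, fun x => isLift_proj (hv x) ?_⟩
    · unfold proj; fun_prop
    intro hne
    have hd1 : dist (tk (k + 1), x) (tk k, x) < δ := by
      have hN0 : (0 : ℝ) < N := lt_trans (by positivity) hN
      rw [Prod.dist_eq, dist_self, max_eq_left dist_nonneg, Subtype.dist_eq]
      refine ((Set.abs_projIcc_sub_projIcc (a := (0 : ℝ)) (b := 1) zero_le_one (c := ((k + 1 : ℕ) : ℝ) / N)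
        (d := (k : ℝ) / N)).trans_eq ?_).trans_lt
        (show 1 / (N : ℝ) < δ by rw [one_div, inv_lt_comm₀ hN0 hδ, ← one_div]; exact hN)
      rw [Nat.cast_succ, add_div, add_sub_cancel_left, abs_of_pos (by positivity)]
    have h2 := hd hd1
    simp only [ContinuousMap.comp_apply, Subtype.dist_eq, hne, dist_eq_norm] at h2
    rw [show -(φ (contr n (tk k, x))).1 - (φ (contr n (tk k, x))).1
      = (-2 : ℝ) • (φ (contr n (tk k, x))).1 by module, norm_smul,
      mem_sphere_zero_iff_norm.1 (φ (contr n (tk k, x))).2] at h2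
    norm_num at h2

theorem continuous_ratio {X : Type*} [TopologicalSpace X] {u v : X → ℂ × ℂ} (hu : Continuous u)
    (hv : Continuous v) (h0 : ∀ x, v x ≠ 0) : Continuous fun x => ratio (u x) (v x) := by
  unfold ratio
  exact Continuous.div (by fun_prop) (by fun_prop) fun x => den_ne (h0 x)

theorem one_add_sq_ne (x : S2) : 1 + (x.1 2) ^ 2 ≠ 0 := by positivity

/-- The squaring map of the sphere. -/
def sqS2 : C(S2, S2) where
  toFun x := ⟨!₂[((x.1 0) ^ 2 - (x.1 1) ^ 2) / (1 + (x.1 2) ^ 2),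
    2 * x.1 0 * x.1 1 / (1 + (x.1 2) ^ 2), 2 * x.1 2 / (1 + (x.1 2) ^ 2)], by
    rw [mem_sphere_zero_iff_norm, EuclideanSpace.norm_eq, Real.sqrt_eq_one]
    simp [Fin.sum_univ_three, sq_abs]
    have := one_add_sq_ne x
    field_simp
    linear_combination ((x.1 0) ^ 2 + (x.1 1) ^ 2 + 1 - (x.1 2) ^ 2) * sq_sum x⟩
  continuous_toFun := by
    refine Continuous.subtype_mk ?_ _
    have := one_add_sq_ne
    refine (PiLp.continuous_toLp 2 _).comp (continuous_pi fun i => ?_)
    fin_cases i <;> exact Continuous.div (by fun_prop) (by fun_prop) this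

theorem wC_sqS2 (x : S2) : (1 + zC x ^ 2) * wC (sqS2 x) = wC x ^ 2 := by
  have := one_add_sq_ne x
  apply Complex.ext <;> simp [sqS2, wC, zC, pow_two, Complex.mul_re, Complex.mul_im] <;>
    field_simp <;> ring

theorem zC_sqS2 (x : S2) : (1 + zC x ^ 2) * zC (sqS2 x) = 2 * zC x := by
  have h : (1 + (x.1 2) ^ 2) * (sqS2 x).1 2 = 2 * x.1 2 := by
    simp [sqS2, mul_div_cancel₀ _ (one_add_sq_ne x)]
  have h' := congrArg (fun r : ℝ => (r : ℂ)) h
  push_cast at h'
  exact h'

/-- The square of a vector, coordinatewise. -/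
def sqV (v : ℂ × ℂ) : ℂ × ℂ := (v.1 ^ 2, v.2 ^ 2)

theorem IsLift.sq {x : S2} {v : ℂ × ℂ} (hv : IsLift x v) : IsLift (sqS2 x) (sqV v) := by
  have hp : (1 : ℂ) + zC x ^ 2 ≠ 0 := by
    rw [zC, ← Complex.ofReal_pow, ← Complex.ofReal_one, ← Complex.ofReal_add]
    exact Complex.ofReal_ne_zero.2 (one_add_sq_ne x)
  have hc := congrArg conj (wC_sqS2 x)
  simp only [map_mul, map_add, map_one, map_pow, conj_zC] at hc
  refine ⟨fun e => hv.ne ?_, mul_left_cancel₀ hp ?_, mul_left_cancel₀ hp ?_⟩
  · exact Prod.ext (by simpa [sqV] using congrArg Prod.fst e)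
      (by simpa [sqV] using congrArg Prod.snd e)
  · simp only [sqV]
    linear_combination v.2 ^ 2 * hc + v.1 ^ 2 * zC_sqS2 x
      + (conj (wC x) * v.2 + (1 - zC x) * v.1) * hv.eq₁
  · simp only [sqV]
    linear_combination v.1 ^ 2 * wC_sqS2 x - v.2 ^ 2 * zC_sqS2 x
      + (wC x * v.1 + (1 + zC x) * v.2) * hv.eq₂

end

end Vale.Agent.P103S.Homology
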