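import Mathlib
import Vale.Agent.P103S.Homology.Chains
import Vale.Agent.P103S.Homology.Lift

/-!
P103 homology bridge (helper8): the winding cocycle of the Hopf lifts, its behaviour under squaring
and its value on the cycle of two hemispheres.
-/

namespace Vale.Agent.P103S.Homology

open Simplicial

noncomputable section

/-- The two sphere as an object. -/
abbrev S2Top : TopCat.{0} := TopCat.of S2

/-- A singular simplex as a continuous map. -/
def simMap {n : ℕ} (σ : Sim S2Top n) : C(Simp n, S2) :=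
  S2Top.toSSetObjEquiv _ σ

/-- A continuous map as a singular simplex. -/
def ofMap {n : ℕ} (g : C(Simp n, S2)) : Sim S2Top n :=
  (S2Top.toSSetObjEquiv _).symm g

theorem simMap_ofMap {n : ℕ} (g : C(Simp n, S2)) : simMap (ofMap g) = g :=
  Equiv.apply_symm_apply _ _

theorem simMap_δ {n : ℕ} (σ : Sim S2Top (n + 1)) (i : Fin (n + 2)) :
    simMap ((TopCat.toSSet.obj S2Top).δ i σ) = (simMap σ).comp (face i) :=
  rfl

theorem simMap_map {n : ℕ} (σ : Sim S2Top n) (g : C(S2, S2)) :
    simMap ((TopCat.toSSet.map (TopCat.ofHom g : S2Top ⟶ S2Top)).app _ σ) = g.comp (simMap σ) :=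
  rfl

/-- The reference lift of an edge: it has the chosen values at both ends. -/
theorem exists_edgeLift (γ : C(Simp 1, S2)) : ∃ w, IsLiftOn γ w ∧
    ∀ j : Fin 2, w (stdSimplex.vertex j) = ptLift (γ (stdSimplex.vertex j)) := by
  obtain ⟨v, hv⟩ := exists_liftOn γ
  have hr : ∀ j : Fin 2, ratio (ptLift (γ (stdSimplex.vertex j))) (v (stdSimplex.vertex j)) ≠ 0 :=
    fun j => (isLift_ptLift _).ratio_ne (hv _)
  let l : Fin 2 → ℂ := fun j =>
    Complex.log (ratio (ptLift (γ (stdSimplex.vertex j))) (v (stdSimplex.vertex j)))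
  have hc : ∀ j : Fin 2, Continuous fun x : Simp 1 => ((x.1 j : ℝ) : ℂ) := fun j =>
    Complex.continuous_ofReal.comp ((continuous_apply j).comp continuous_subtype_val)
  let w : C(Simp 1, ℂ × ℂ) :=
    ⟨fun x => Complex.exp (((x.1 0 : ℝ) : ℂ) * l 0 + ((x.1 1 : ℝ) : ℂ) * l 1) • v x,
    (Complex.continuous_exp.comp (((hc 0).mul continuous_const).add ((hc 1).mul continuous_const))).smul
      v.continuous⟩
  refine ⟨w, fun x => (hv x).smul (Complex.exp_ne_zero _), fun j => ?_⟩
  have he : w (stdSimplex.vertex j)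
      = ratio (ptLift (γ (stdSimplex.vertex j))) (v (stdSimplex.vertex j))
        • v (stdSimplex.vertex j) := by
    simp only [w, ContinuousMap.coe_mk]
    congr 1
    have := Complex.exp_log (hr j)
    fin_cases j <;> simpa [l, stdSimplex.vertex] using this
  rw [he, ← (isLift_ptLift _).eq_ratio_smul (hv _)]

/-- The chosen reference lift of an edge. -/
def edgeLift (γ : C(Simp 1, S2)) : C(Simp 1, ℂ × ℂ) := (exists_edgeLift γ).choose

theorem isLiftOn_edgeLift (γ : C(Simp 1, S2)) : IsLiftOn γ (edgeLift γ) :=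
  (exists_edgeLift γ).choose_spec.1

/-- The ratio of a lift of an edge to the reference lift. -/
def rel {γ : C(Simp 1, S2)} {v : C(Simp 1, ℂ × ℂ)} (_hv : IsLiftOn γ v) : C(Simp 1, ℂ) :=
  ⟨fun x => ratio (v x) (edgeLift γ x),
    continuous_ratio v.continuous (edgeLift γ).continuous fun x => (isLiftOn_edgeLift γ x).ne⟩

theorem rel_ne {γ : C(Simp 1, S2)} {v : C(Simp 1, ℂ × ℂ)} (hv : IsLiftOn γ v) (x : Simp 1) :
    rel hv x ≠ 0 :=
  (hv x).ratio_ne (isLiftOn_edgeLift γ x)

theorem IsLiftOn.restrict {n : ℕ} {g : C(Simp (n + 1), S2)} {v : C(Simp (n + 1), ℂ × ℂ)}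
    (hv : IsLiftOn g v) (i : Fin (n + 2)) : IsLiftOn (g.comp (face i)) (v.comp (face i)) :=
  fun x => hv (face i x)

/-- The winding of a lift around the boundary of a triangle. -/
def wind {g : C(Simp 2, S2)} {v : C(Simp 2, ℂ × ℂ)} (hv : IsLiftOn g v) : ℝ :=
  ∑ i : Fin 3, (-1 : ℝ) ^ i.val * inc (rel (hv.restrict i))

theorem wind_eq {g : C(Simp 2, S2)} {v v' : C(Simp 2, ℂ × ℂ)} (hv : IsLiftOn g v)
    (hv' : IsLiftOn g v') : wind hv = wind hv' := by
  let r : C(Simp 2, ℂ) := ⟨fun x => ratio (v x) (v' x),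
    continuous_ratio v.continuous v'.continuous fun x => (hv' x).ne⟩
  have hr : ∀ x, r x ≠ 0 := fun x => (hv x).ratio_ne (hv' x)
  have he : ∀ i, rel (hv.restrict i) = r.comp (face i) * rel (hv'.restrict i) := fun i => by
    ext x
    refine Eq.trans (congrArg (fun u => ratio u _) ?_)
      (ratio_smul (isLiftOn_edgeLift (g.comp (face i)) x).ne _)
    show v (face i x) = _
    rw [ContinuousMap.mul_apply, mul_smul]
    exact ((hv (face i x)).eq_ratio_smul (hv' (face i x))).trans
      (congrArg (r (face i x) • ·) ((hv'.restrict i x).eq_ratio_smul (isLiftOn_edgeLift _ x)))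
  have hi : ∀ i, inc (rel (hv.restrict i))
      = inc (r.comp (face i)) + inc (rel (hv'.restrict i)) := fun i => by
    rw [he, inc_mul (r := r.comp (face i)) (fun x => hr _) (rel_ne _)]
  simp only [wind, hi, mul_add, Finset.sum_add_distrib, inc_boundary hr, zero_add]

/-- The winding cochain. -/
def euler (σ : Sim S2Top 2) : ℝ := wind (exists_liftOn (simMap σ)).choose_spec

theorem euler_eq {σ : Sim S2Top 2} {v : C(Simp 2, ℂ × ℂ)} (hv : IsLiftOn (simMap σ) v) :
    euler σ = wind hv :=
  wind_eq _ hv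

theorem inc_rel_congr {γ γ' : C(Simp 1, S2)} {v v' : C(Simp 1, ℂ × ℂ)} (hv : IsLiftOn γ v)
    (hv' : IsLiftOn γ' v') (h : γ = γ') (h' : v = v') : inc (rel hv) = inc (rel hv') := by
  subst h h'; rfl

theorem euler_cocycle (τ : Sim S2Top 3) : cobd euler τ = 0 := by
  obtain ⟨V, hV⟩ := exists_liftOn (simMap τ)
  let h : (Fin 2 → Fin 4) → ℝ := fun φ =>
    inc (rel (γ := (simMap τ).comp ⟨stdSimplex.map φ, stdSimplex.continuous_map φ⟩)
      (v := V.comp ⟨stdSimplex.map φ, stdSimplex.continuous_map φ⟩) fun x => hV _)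
  have he : ∀ i, euler ((TopCat.toSSet.obj S2Top).δ i τ)
      = ∑ k : Fin 3, (-1 : ℝ) ^ k.val * h (i.succAbove ∘ k.succAbove) := fun i => by
    refine (euler_eq (v := V.comp (face i)) (fun x => by rw [simMap_δ]; exact hV (face i x))).trans
      (Finset.sum_congr rfl fun k _ => congrArg _ (inc_rel_congr _ _ ?_ ?_))
    · rw [simMap_δ]
      ext x : 1
      exact congrArg (simMap τ) (stdSimplex.map_comp_apply _ _ x)
    · ext x : 1
      exact congrArg V (stdSimplex.map_comp_apply _ _ x)
  have key : ∀ i : Fin 4, ∀ k : Fin 3, (i.succAbove ∘ k.succAbove : Fin 2 → Fin 4)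
      = ![i.succAbove (k.succAbove 0), i.succAbove (k.succAbove 1)] := fun i k => by
    ext j; fin_cases j <;> rfl
  simp only [cobd, he, key]
  simp [Fin.sum_univ_succ, Fin.succAbove]
  ring

/-- The correction on edges under squaring. -/
def sqEdge (γ : C(Simp 1, S2)) : ℝ :=
  inc (rel (γ := sqS2.comp γ) (v := ⟨fun x => sqV (edgeLift γ x), by unfold sqV; fun_prop⟩)
    fun x => (isLiftOn_edgeLift γ x).sq)

theorem euler_sq (σ : Sim S2Top 2) :
    euler ((TopCat.toSSet.map (TopCat.ofHom sqS2 : S2Top ⟶ S2Top)).app _ σ)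
      = 2 * euler σ + cobd (fun γ => sqEdge (simMap γ)) σ := by
  obtain ⟨v, hv⟩ := exists_liftOn (simMap σ)
  let v2 : C(Simp 2, ℂ × ℂ) := ⟨fun x => sqV (v x), by unfold sqV; fun_prop⟩
  have hv2 : IsLiftOn (sqS2.comp (simMap σ)) v2 := fun x => (hv x).sq
  rw [euler_eq hv, euler_eq (v := v2) (fun x => by rw [simMap_map]; exact hv2 x)]
  show wind hv2 = _
  simp only [wind, cobd, Finset.mul_sum, ← Finset.sum_add_distrib]
  refine Finset.sum_congr rfl fun i _ => ?_
  rw [simMap_δ, sqEdge]
  set a := rel (hv.restrict i)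
  set b := rel (γ := sqS2.comp ((simMap σ).comp (face i)))
    (v := ⟨fun x => sqV (edgeLift ((simMap σ).comp (face i)) x), by unfold sqV; fun_prop⟩)
    fun x => (isLiftOn_edgeLift _ x).sq with hb
  have e : rel (hv2.restrict i) = a * a * b := by
    ext x
    have h1 := (hv.restrict i x).eq_ratio_smul (isLiftOn_edgeLift ((simMap σ).comp (face i)) x)
    have h2 := (isLiftOn_edgeLift ((simMap σ).comp (face i)) x).sq.eq_ratio_smul
      (isLiftOn_edgeLift (sqS2.comp ((simMap σ).comp (face i))) x)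
    show ratio (sqV (v (face i x))) (edgeLift (sqS2.comp ((simMap σ).comp (face i))) x) = _
    refine Eq.trans (congrArg (fun u => ratio u _) ?_)
      (ratio_smul (isLiftOn_edgeLift _ x).ne _)
    calc sqV (v (face i x))
        = (a x * a x) • sqV (edgeLift ((simMap σ).comp (face i)) x) := by
          show sqV ((v.comp (face i)) x) = _
          rw [h1]
          refine Prod.ext ?_ ?_ <;> simp [sqV, a, rel] <;> ring
      _ = (a x * a x) • b x • edgeLift (sqS2.comp ((simMap σ).comp (face i))) x :=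
          congrArg _ h2
      _ = _ := by rw [smul_smul]; rfl
  rw [e, inc_mul (r := a * a) (s := b) (fun x => mul_ne_zero (rel_ne _ x) (rel_ne _ x))
      (fun x => rel_ne _ x), inc_mul (r := a) (s := a) (fun x => rel_ne _ x) (fun x => rel_ne _ x)]
  ring

end

end Vale.Agent.P103S.Homology
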