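import Mathlib
import Vale.Agent.P103S.Homology.Cocycle

/-!
P103 homology bridge (helper8): the winding cocycle is nonzero on the two hemispheres, and two is in
the spectrum of a map covering the squaring map of the two sphere up to homotopy.
-/

namespace Vale.Agent.P103S.Homology

open CategoryTheory AlgebraicTopology Simplicial
open scoped ComplexConjugate

noncomputable section

theorem den_pos (ζ : ℂ) : 0 < 1 + ζ.re ^ 2 + ζ.im ^ 2 := by positivity

/-- The inverse stereographic projection from the south pole. -/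
def upper : C(ℂ, S2) where
  toFun ζ := ⟨!₂[2 * ζ.re / (1 + ζ.re ^ 2 + ζ.im ^ 2), 2 * ζ.im / (1 + ζ.re ^ 2 + ζ.im ^ 2),
    (1 - ζ.re ^ 2 - ζ.im ^ 2) / (1 + ζ.re ^ 2 + ζ.im ^ 2)], by
    rw [mem_sphere_zero_iff_norm, EuclideanSpace.norm_eq, Real.sqrt_eq_one]
    simp [Fin.sum_univ_three, sq_abs]
    have := (den_pos ζ).ne'
    field_simp
    ring⟩
  continuous_toFun := by
    refine Continuous.subtype_mk ?_ _
    have := fun ζ => (den_pos ζ).ne'
    refine (PiLp.continuous_toLp 2 _).comp (continuous_pi fun i => ?_)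
    fin_cases i <;> exact Continuous.div (by fun_prop) (by fun_prop) this

/-- The reflection in the equatorial plane. -/
def flipS2 : C(S2, S2) where
  toFun x := ⟨!₂[x.1 0, x.1 1, -x.1 2], by
    rw [mem_sphere_zero_iff_norm, EuclideanSpace.norm_eq, Real.sqrt_eq_one]
    simpa [Fin.sum_univ_three, sq_abs] using sq_sum x⟩
  continuous_toFun := by
    refine Continuous.subtype_mk ?_ _
    refine (PiLp.continuous_toLp 2 _).comp (continuous_pi fun i => ?_)
    fin_cases i <;> fun_prop

theorem upper_coords (ζ : ℂ) :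
    (1 + conj ζ * ζ) * wC (upper ζ) = 2 * ζ ∧ (1 + conj ζ * ζ) * zC (upper ζ) = 1 - conj ζ * ζ := by
  have hd := (den_pos ζ).ne'
  have hn : 1 + conj ζ * ζ = ((1 + ζ.re ^ 2 + ζ.im ^ 2 : ℝ) : ℂ) := by
    rw [← Complex.normSq_eq_conj_mul_self, Complex.normSq_apply]; push_cast; ring
  have hz : (1 + ζ.re ^ 2 + ζ.im ^ 2) * (upper ζ).1 2 = 2 - (1 + ζ.re ^ 2 + ζ.im ^ 2) := by
    simp [upper, mul_div_cancel₀ _ hd]; ring
  constructor
  · rw [hn]; apply Complex.ext <;> simp [upper, wC, ← Complex.ofReal_pow, mul_div_cancel₀ _ hd]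
  · rw [show 1 - conj ζ * ζ = 2 - (1 + conj ζ * ζ) by ring, hn, zC, ← Complex.ofReal_mul, hz]
    push_cast; ring

theorem flip_upper {ζ : ℂ} (h : ‖ζ‖ = 1) : flipS2 (upper ζ) = upper ζ := by
  rw [Complex.norm_def, Real.sqrt_eq_one, Complex.normSq_apply] at h
  have h0 : 1 - ζ.re ^ 2 - ζ.im ^ 2 = 0 := by linarith
  apply Subtype.ext
  apply PiLp.ext
  intro j
  fin_cases j <;> simp [flipS2, upper, h0]

theorem isLift_upper (ζ : ℂ) : IsLift (upper ζ) (1, ζ) := by
  have hp : 1 + conj ζ * ζ ≠ 0 := by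
    have := den_ne (v := ((1 : ℂ), ζ)) (by simp)
    simpa using this
  obtain ⟨h1, h2⟩ := upper_coords ζ
  have h1' := congrArg conj h1
  simp only [map_mul, map_add, map_one, Complex.conj_conj, map_ofNat] at h1'
  refine ⟨by simp, mul_left_cancel₀ hp ?_, mul_left_cancel₀ hp ?_⟩
  · linear_combination ζ * h1' + h2
  · linear_combination h1 - ζ * h2

theorem isLift_flip (ζ : ℂ) : IsLift (flipS2 (upper ζ)) (conj ζ, 1) := by
  have h := isLift_upper ζ
  have hw : wC (flipS2 (upper ζ)) = wC (upper ζ) := by apply Complex.ext <;> simp [flipS2, wC]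
  have hz : zC (flipS2 (upper ζ)) = -zC (upper ζ) := by simp [flipS2, zC]
  refine ⟨by simp, ?_, ?_⟩
  · have := congrArg conj h.eq₂
    simp only [map_mul, map_add, map_one, conj_zC] at this
    rw [hw, hz]
    linear_combination this
  · have := congrArg conj h.eq₁
    simp only [map_mul, map_sub, map_one, conj_zC, Complex.conj_conj] at this
    rw [hw, hz]
    linear_combination this

/-- An affine map of the triangle to the plane winding once around the origin. -/
def tri : C(Simp 2, ℂ) :=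
  ⟨fun x => ((x.1 0 : ℝ) : ℂ) * 3 + ((x.1 1 : ℝ) : ℂ) * (3 * Complex.I)
      + ((x.1 2 : ℝ) : ℂ) * (-3 - 3 * Complex.I),
    by
      have hc : ∀ j : Fin 3, Continuous fun x : Simp 2 => ((x.1 j : ℝ) : ℂ) := fun j =>
        Complex.continuous_ofReal.comp ((continuous_apply j).comp continuous_subtype_val)
      exact (((hc 0).mul continuous_const).add ((hc 1).mul continuous_const)).add
        ((hc 2).mul continuous_const)⟩

/-- The map to the closed disc. -/
def disc : C(Simp 2, ℂ) :=
  ⟨fun x => tri x / ((max 1 ‖tri x‖ : ℝ) : ℂ),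
    tri.continuous.div (Complex.continuous_ofReal.comp (continuous_const.max tri.continuous.norm))
      fun x => Complex.ofReal_ne_zero.2 (zero_lt_one.trans_le (le_max_left _ _)).ne'⟩

theorem face_coe (i : Fin 3) (s : Simp 1) (j : Fin 3) :
    (face i s).1 j = ∑ k : Fin 2, if i.succAbove k = j then s.1 k else 0 := by
  show FunOnFinite.linearMap ℝ ℝ i.succAbove s.1 j = _
  rw [FunOnFinite.linearMap_apply_apply, Finset.sum_filter]

theorem tri_face (s : Simp 1) :
    tri (face 0 s) = ((s.1 0 : ℝ) : ℂ) * (3 * Complex.I) + ((s.1 1 : ℝ) : ℂ) * (-3 - 3 * Complex.I) ∧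
    tri (face 1 s) = ((s.1 0 : ℝ) : ℂ) * 3 + ((s.1 1 : ℝ) : ℂ) * (-3 - 3 * Complex.I) ∧
    tri (face 2 s) = ((s.1 0 : ℝ) : ℂ) * 3 + ((s.1 1 : ℝ) : ℂ) * (3 * Complex.I) := by
  refine ⟨?_, ?_, ?_⟩ <;>
    simp [tri, face_coe, Fin.sum_univ_two, Fin.succAbove]

theorem simp_one (s : Simp 1) : 0 ≤ s.1 0 ∧ 0 ≤ s.1 1 ∧ s.1 0 + s.1 1 = 1 :=
  ⟨s.2.1 0, s.2.1 1, by have := s.2.2; simpa [Fin.sum_univ_two] using this⟩

theorem one_le_norm_tri (i : Fin 3) (s : Simp 1) : 1 ≤ ‖tri (face i s)‖ := by
  obtain ⟨ha, hb, hab⟩ := simp_one s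
  obtain ⟨h0, h1, h2⟩ := tri_face s
  rw [Complex.norm_def, Real.one_le_sqrt, Complex.normSq_apply]
  have e : s.1 1 = 1 - s.1 0 := by linarith
  match i with
  | 0 => rw [h0]; simp [e]; nlinarith [sq_nonneg (5 * s.1 0 - 3)]
  | 1 => rw [h1]; simp [e]; nlinarith [sq_nonneg (5 * s.1 0 - 3)]
  | 2 => rw [h2]; simp [e]; nlinarith [sq_nonneg (2 * s.1 0 - 1)]

theorem norm_disc_face (i : Fin 3) (s : Simp 1) : ‖disc (face i s)‖ = 1 := by
  have h := one_le_norm_tri i s
  have h0 : ‖tri (face i s)‖ ≠ 0 := by linarith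
  simp [disc, max_eq_right h, div_self h0]

theorem inc_disc (i : Fin 3) : inc (disc.comp (face i)) = inc (tri.comp (face i)) := by
  let m : C(Simp 1, ℝ) := ⟨fun s => max 1 ‖tri (face i s)‖,
    continuous_const.max (tri.continuous.comp (face i).continuous).norm⟩
  have hm : ∀ s, 0 < m s := fun s => zero_lt_one.trans_le (le_max_left _ _)
  have e : tri.comp (face i) = disc.comp (face i) * ⟨fun s => (m s : ℂ), by fun_prop⟩ := by
    ext s
    exact (div_mul_cancel₀ (tri (face i s)) (Complex.ofReal_ne_zero.2 (hm s).ne')).symm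
  have hd : ∀ s, (disc.comp (face i)) s ≠ 0 := fun s h => by
    simpa [show disc (face i s) = 0 from h] using norm_disc_face i s
  rw [e, inc_mul hd (fun s => Complex.ofReal_ne_zero.2 (hm s).ne'), inc_ofReal m hm, add_zero]

theorem inc_tri (i : Fin 3) (u v : ℂ) (hu : u ≠ 0)
    (he : ∀ s : Simp 1, tri (face i s) = ((s.1 0 : ℝ) : ℂ) * u + ((s.1 1 : ℝ) : ℂ) * v)
    (hs : (v / u).im ≠ 0) : inc (tri.comp (face i)) = (v / u).arg := by
  have e0 : tri (face i (stdSimplex.vertex 0)) = u := by simp [he]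
  have e1 : tri (face i (stdSimplex.vertex 1)) = v := by simp [he]
  rw [inc_eq_arg fun s => ?_]
  · show Complex.arg (tri (face i _) / tri (face i _)) = _
    rw [e0, e1]
  show tri (face i s) / tri (face i (stdSimplex.vertex 0)) ∈ Complex.slitPlane
  rw [e0, he, add_div, mul_div_assoc, div_self hu, mul_one, mul_div_assoc]
  obtain ⟨ha, hb, hab⟩ := simp_one s
  by_cases hb0 : s.1 1 = 0
  · left; simp [hb0, show s.1 0 = 1 by linarith]
  · right; simpa [hb0] using hs

theorem disc_winding_pos : 0 < ∑ i : Fin 3, (-1 : ℝ) ^ i.val * inc (disc.comp (face i)) := by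
  have h0 := inc_tri 0 (3 * Complex.I) (-3 - 3 * Complex.I) (by simp) (fun s => (tri_face s).1)
    (by simp [Complex.div_im, Complex.normSq])
  have h1 := inc_tri 1 3 (-3 - 3 * Complex.I) (by norm_num) (fun s => (tri_face s).2.1)
    (by simp)
  have h2 := inc_tri 2 3 (3 * Complex.I) (by norm_num) (fun s => (tri_face s).2.2)
    (by simp)
  have a0 : 0 ≤ ((-3 - 3 * Complex.I) / (3 * Complex.I)).arg := by
    rw [Complex.arg_nonneg_iff]; simp [Complex.div_im, Complex.normSq]
  have a1 : ((-3 - 3 * Complex.I) / 3).arg < 0 := by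
    rw [Complex.arg_neg_iff]; simp
  have a2 : 0 ≤ (3 * Complex.I / 3).arg := by
    rw [Complex.arg_nonneg_iff]; simp
  simp only [Fin.sum_univ_three, inc_disc, h0, h1, h2]
  simp
  linarith [Real.pi_pos]

theorem exists_pairing_ne : pairing euler euler_cocycle ≠ 0 := by
  refine pairing_ne_zero _ _ (ofMap (upper.comp disc)) (ofMap (flipS2.comp (upper.comp disc)))
    (fun i => ?_) ?_
  · apply (S2Top.toSSetObjEquiv _).injective
    show simMap _ = simMap _
    rw [simMap_δ, simMap_δ, simMap_ofMap, simMap_ofMap]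
    ext s : 1
    exact (flip_upper (norm_disc_face i s)).symm
  · let vp : C(Simp 2, ℂ × ℂ) := ⟨fun x => (1, disc x), by fun_prop⟩
    let vm : C(Simp 2, ℂ × ℂ) := ⟨fun x => (conj (disc x), 1),
      (Complex.continuous_conj.comp disc.continuous).prodMk continuous_const⟩
    have hp : IsLiftOn (simMap (ofMap (upper.comp disc))) vp := fun x => by
      rw [simMap_ofMap]; exact isLift_upper _
    have hm : IsLiftOn (simMap (ofMap (flipS2.comp (upper.comp disc)))) vm := fun x => by
      rw [simMap_ofMap]; exact isLift_flip _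
    rw [euler_eq hp, euler_eq hm]
    refine ne_of_gt (lt_of_lt_of_le (lt_add_of_pos_right _ disc_winding_pos) (le_of_eq ?_))
    simp only [wind, ← Finset.sum_add_distrib]
    refine Finset.sum_congr rfl fun i _ => ?_
    rw [← mul_add]
    congr 1
    have hγ : (simMap (ofMap (flipS2.comp (upper.comp disc)))).comp (face i)
        = (simMap (ofMap (upper.comp disc))).comp (face i) := by
      rw [simMap_ofMap, simMap_ofMap]
      ext s : 1
      exact flip_upper (norm_disc_face i s)
    have hvm : IsLiftOn ((simMap (ofMap (upper.comp disc))).comp (face i)) (vm.comp (face i)) :=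
      fun s => by rw [← hγ]; exact hm.restrict i s
    rw [inc_rel_congr (hm.restrict i) hvm hγ rfl, add_comm,
      ← inc_mul (r := disc.comp (face i)) (fun s h => by
        simpa [show disc (face i s) = 0 from h] using norm_disc_face i s) (rel_ne hvm)]
    congr 1
    ext s
    refine Eq.symm (Eq.trans (congrArg (fun u => ratio u _) ?_)
      (ratio_smul (isLiftOn_edgeLift _ s).ne _))
    show ((1 : ℂ), disc (face i s)) = _
    rw [ContinuousMap.mul_apply, mul_smul]
    refine Eq.trans ?_ (congrArg (disc (face i s) • ·)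
      ((hvm s).eq_ratio_smul (isLiftOn_edgeLift _ s)))
    have h : disc (face i s) * conj (disc (face i s)) = 1 := by
      rw [Complex.mul_conj, Complex.normSq_eq_norm_sq, norm_disc_face]; simp
    simp [vm, h]

/-- A map covering the squaring map of the two sphere up to homotopy has a nonzero functional on
real second homology which it multiplies by two. -/
theorem exists_eigen_functional {M : TopCat.{0}} (p : C(M, S2)) (i : C(S2, M))
    (hpi : p.comp i = ContinuousMap.id S2) (f : C(M, M))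
    (hf : ContinuousMap.Homotopic (p.comp f) (sqS2.comp p)) :
    ∃ L : ((singularHomologyFunctor (ModuleCat.{0} ℝ) 2).obj (ModuleCat.of ℝ ℝ)).obj M
        ⟶ ModuleCat.of ℝ ℝ, L ≠ 0 ∧
      ((singularHomologyFunctor (ModuleCat.{0} ℝ) 2).obj (ModuleCat.of ℝ ℝ)).map
        (TopCat.ofHom f : M ⟶ M) ≫ L = (2 : ℝ) • L := by
  let F := (singularHomologyFunctor (ModuleCat.{0} ℝ) 2).obj (ModuleCat.of ℝ ℝ)
  let P : M ⟶ S2Top := TopCat.ofHom p
  let J : S2Top ⟶ M := TopCat.ofHom i
  let e : F.obj S2Top ⟶ ModuleCat.of ℝ ℝ := pairing euler euler_cocycle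
  have hsq : F.map (TopCat.ofHom sqS2 : S2Top ⟶ S2Top) ≫ e = (2 : ℝ) • e :=
    map_pairing (X := S2Top) (TopCat.ofHom sqS2) euler euler_cocycle 2
      (fun γ => sqEdge (simMap γ)) euler_sq
  obtain ⟨H⟩ := hf
  have hH : F.map ((TopCat.ofHom f : M ⟶ M) ≫ P) = F.map (P ≫ TopCat.ofHom sqS2) :=
    TopCat.Homotopy.congr_homologyMap_singularChainComplexFunctor
      (f := (TopCat.ofHom f : M ⟶ M) ≫ P) (g := P ≫ TopCat.ofHom sqS2) H _ 2
  let L : F.obj M ⟶ ModuleCat.of ℝ ℝ := F.map P ≫ e
  have hL : F.map (TopCat.ofHom f : M ⟶ M) ≫ L = (2 : ℝ) • L := by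
    simp only [L]
    rw [← Category.assoc, ← F.map_comp, hH, F.map_comp, Category.assoc, hsq, Linear.comp_smul]
  have hJ : F.map J ≫ L = e := by
    have hJP : J ≫ P = 𝟙 S2Top := by
      ext x : 1
      exact DFunLike.congr_fun hpi x
    simp only [L]
    rw [← Category.assoc, ← F.map_comp, hJP, F.map_id, Category.id_comp]
  have hL0 : L ≠ 0 := fun h0 => exists_pairing_ne (by
    show e = 0
    rw [← hJ, h0, Limits.comp_zero])
  exact ⟨L, hL0, hL⟩

/-- **The bridge.** A map covering the squaring map of the two sphere up to homotopy has two in the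
spectrum of its action on real second homology. -/
theorem two_mem_spectrum {M : TopCat.{0}} (p : C(M, S2)) (i : C(S2, M))
    (hpi : p.comp i = ContinuousMap.id S2) (f : C(M, M))
    (hf : ContinuousMap.Homotopic (p.comp f) (sqS2.comp p)) :
    (2 : ℝ) ∈ spectrum ℝ (((singularHomologyFunctor (ModuleCat.{0} ℝ) 2).obj
      (ModuleCat.of ℝ ℝ)).map (TopCat.ofHom f : M ⟶ M)).hom := by
  let F := (singularHomologyFunctor (ModuleCat.{0} ℝ) 2).obj (ModuleCat.of ℝ ℝ)
  obtain ⟨L, hL0, hL⟩ := exists_eigen_functional p i hpi f hf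
  by_contra hne
  rw [spectrum.mem_iff, not_not] at hne
  obtain ⟨u, hu⟩ := hne
  refine hL0 (ModuleCat.hom_ext (LinearMap.ext fun x => ?_))
  have hx : x = (u : Module.End ℝ (F.obj M)) ((↑u⁻¹ : Module.End ℝ (F.obj M)) x) := by
    rw [← Module.End.mul_apply, Units.mul_inv, Module.End.one_apply]
  rw [hx, hu]
  have h2 := congrArg (fun m => m.hom ((↑u⁻¹ : Module.End ℝ (F.obj M)) x)) hL
  simp only [ModuleCat.hom_comp, LinearMap.comp_apply, ModuleCat.hom_smul,
    LinearMap.smul_apply] at h2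
  simp only [LinearMap.sub_apply, map_sub, Module.algebraMap_end_apply, map_smul]
  refine (sub_eq_zero.2 h2.symm).trans ?_
  simp

end

end Vale.Agent.P103S.Homology
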